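import Vale.Agent.P212.Base.Metric

/-!
P212, geometry: the two spaces have bounded geometry and the collapse is contracting.
-/

namespace VP212

namespace Geom

variable {V : Type} (G : SimpleGraph V)

/-- The balls given by a list of possible neighbours. -/
noncomputable def ballSet (nb : V → Finset V) : ℕ → V → Finset V
  | 0, x => {x}
  | k + 1, x => by classical exact insert x ((nb x).biUnion (ballSet nb k))

theorem card_ballSet (nb : V → Finset V) (D : ℕ) (hD : ∀ x, (nb x).card ≤ D) :
    ∀ k x, (ballSet nb k x).card ≤ (D + 1) ^ k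
  | 0, x => by simp [ballSet]
  | k + 1, x => by
    classical
    simp only [ballSet]
    refine (Finset.card_insert_le _ _).trans ?_
    have h1 := (Finset.card_biUnion_le (s := nb x) (t := ballSet nb k)).trans
      (Finset.sum_le_card_nsmul _ _ _ fun y _ => card_ballSet nb D hD k y)
    rw [smul_eq_mul] at h1
    have h2 : (nb x).card * (D + 1) ^ k ≤ D * (D + 1) ^ k := Nat.mul_le_mul_right _ (hD x)
    have h3 : 1 ≤ (D + 1) ^ k := Nat.one_le_pow _ _ (by omega)
    rw [pow_succ]
    nlinarith

theorem mem_ballSet (nb : V → Finset V) (hnb : ∀ x y, G.Adj x y → y ∈ nb x) {x y : V}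
    (p : G.Walk x y) : ∀ k, p.length ≤ k → y ∈ ballSet nb k x := by
  classical
  induction p with
  | nil =>
    intro k _
    cases k <;> simp [ballSet]
  | @cons u v w e p ih =>
    intro k hk
    rw [SimpleGraph.Walk.length_cons] at hk
    obtain ⟨k, rfl⟩ : ∃ k', k = k' + 1 := ⟨k - 1, by omega⟩
    simp only [ballSet, Finset.mem_insert, Finset.mem_biUnion]
    exact Or.inr ⟨v, hnb u v e, ih k (by omega)⟩

theorem bounded_join [MetricSpace V] (c : V → ℕ) (o : ℕ → V) (_ho : ∀ m, c (o m) = m)
    (hreach : ∀ x, G.Reachable x (o (c x))) (hd : ∀ x y : V, dist x y = joinDist G c o x y)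
    (D : ℕ) (nb : V → Finset V) (hnb : ∀ x y, G.Adj x y → y ∈ nb x)
    (hD : ∀ x, (nb x).card ≤ D) : BoundedGeometry V := by
  classical
  intro R
  let k := ⌊R⌋₊
  refine ⟨(D + 1) ^ k + (k + 1) * (D + 1) ^ k, fun x => ?_⟩
  let s : Finset V := ballSet nb k x ∪ (Finset.range (k + 1)).biUnion fun m => ballSet nb k (o m)
  have hsub : Metric.closedBall x R ⊆ (s : Set V) := by
    intro y hy
    rw [Metric.mem_closedBall, dist_comm, hd] at hy
    simp only [joinDist] at hy
    by_cases h : c x = c y
    · rw [if_pos h] at hy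
      obtain ⟨p, hp⟩ := ((hreach x).trans (h ▸ (hreach y).symm)).exists_walk_length_eq_dist
      refine Finset.mem_coe.2 (Finset.mem_union_left _ (mem_ballSet G nb hnb p k ?_))
      exact hp ▸ Nat.le_floor hy
    · rw [if_neg h] at hy
      have h1 : (0 : ℝ) ≤ G.dist x (o (c x)) := Nat.cast_nonneg _
      have h2 : (0 : ℝ) ≤ G.dist y (o (c y)) := Nat.cast_nonneg _
      have h3 : (0 : ℝ) ≤ (c x : ℝ) := Nat.cast_nonneg _
      have h4 : (0 : ℝ) ≤ (c y : ℝ) := Nat.cast_nonneg _
      have hm : c y ≤ k := Nat.le_floor (by linarith)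
      have hdy : G.dist (o (c y)) y ≤ k := Nat.le_floor (by
        rw [SimpleGraph.dist_comm]; linarith)
      obtain ⟨p, hp⟩ := (hreach y).symm.exists_walk_length_eq_dist
      refine Finset.mem_coe.2 (Finset.mem_union_right _ (Finset.mem_biUnion.2
        ⟨c y, Finset.mem_range.2 (Nat.lt_succ_of_le hm), mem_ballSet G nb hnb p k (hp ▸ hdy)⟩))
  refine ⟨s.finite_toSet.subset hsub, (Set.ncard_le_ncard hsub s.finite_toSet).trans ?_⟩
  rw [Set.ncard_coe_finset]
  refine (Finset.card_union_le _ _).trans (Nat.add_le_add (card_ballSet nb D hD k x) ?_)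
  refine (Finset.card_biUnion_le.trans
    (Finset.sum_le_card_nsmul _ _ _ fun m _ => card_ballSet nb D hD k (o m))).trans ?_
  simp

variable {T : Tower}

/-- The backward step in the first direction. -/
noncomputable def backA (x : Vert T) : Vert T :=
  ⟨x.n, (x.z.1 - 1, x.z.2), x.l,
    if x.z.1 - 1 = seam x.n then (T.A x.n x.l).symm x.w else x.w⟩

/-- The backward step in the second direction. -/
noncomputable def backB (x : Vert T) : Vert T :=
  ⟨x.n, (x.z.1, x.z.2 - 1), x.l,
    if x.z.2 - 1 = seam x.n then (T.B x.n x.l).symm x.w else x.w⟩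

/-- The possible neighbours in the space. -/
noncomputable def vertNb (x : Vert T) : Finset (Vert T) := by
  classical exact
    (Finset.univ.image fun g : Gen => stepG g x) ∪
    (Finset.univ.image fun g : Gen => stepG (g.1, -g.2) x) ∪
    ({stepA x, stepB x, backA x, backB x} : Finset (Vert T)) ∪
    ((Finset.univ.filter fun v : T.Fib x.n (x.l + 1) => T.par x.n x.l v = x.w).image
      fun v => (⟨x.n, x.z, x.l + 1, v⟩ : Vert T)) ∪
    (match x with
      | ⟨_, _, 0, _⟩ => ∅
      | ⟨n, z, l + 1, f⟩ => {⟨n, z, l, T.par n l f⟩})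

theorem vertNb_card (x : Vert T) :
    (vertNb x).card ≤ Fintype.card Gen + Fintype.card Gen + 4 + T.bound + 1 := by
  classical
  unfold vertNb
  refine (Finset.card_union_le _ _).trans (Nat.add_le_add ?_ ?_)
  · refine (Finset.card_union_le _ _).trans (Nat.add_le_add ?_ ?_)
    · refine (Finset.card_union_le _ _).trans (Nat.add_le_add ?_ ?_)
      · exact (Finset.card_union_le _ _).trans
          (Nat.add_le_add Finset.card_image_le Finset.card_image_le)
      · exact Finset.card_le_four
    · refine Finset.card_image_le.trans ?_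
      rw [← Fintype.card_subtype]
      refine le_trans (le_of_eq ?_) (T.par_bound x.n x.l x.w)
      exact (Nat.card_eq_fintype_card).symm
  · obtain ⟨n, z, l, f⟩ := x
    cases l <;> simp

theorem act_neg' (n l : ℕ) (g : Gen) (x : T.Fib n l) :
    T.act n l (g.1, -g.2) (T.act n l g x) = x := by
  have h0 : T.act n l (g.1, 0) = 1 := by
    have h := T.act_add n l g.1 0 0
    rw [add_zero] at h
    exact left_eq_mul.1 h
  rw [← Equiv.Perm.mul_apply, ← T.act_add, neg_add_cancel, h0, Equiv.Perm.one_apply]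

theorem vertNb_mem (x y : Vert T) (h : (vertGraph T).Adj x y) : y ∈ vertNb x := by
  classical
  rw [vertGraph, SimpleGraph.fromRel_adj] at h
  unfold vertNb
  simp only [Finset.mem_union, Finset.mem_image, Finset.mem_univ, true_and, Finset.mem_insert,
    Finset.mem_singleton, Finset.mem_filter]
  rcases h.2 with hr | hr
  · rcases hr with ⟨g, rfl⟩ | rfl | rfl | ⟨v, hv, rfl⟩
    · exact Or.inl (Or.inl (Or.inl (Or.inl ⟨g, rfl⟩)))
    · exact Or.inl (Or.inl (Or.inr (Or.inl rfl)))
    · exact Or.inl (Or.inl (Or.inr (Or.inr (Or.inl rfl))))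
    · exact Or.inl (Or.inr ⟨v, hv, rfl⟩)
  · rcases hr with ⟨g, rfl⟩ | rfl | rfl | ⟨v, hv, rfl⟩
    · refine Or.inl (Or.inl (Or.inl (Or.inr ⟨g, ?_⟩)))
      obtain ⟨n, z, l, f⟩ := y
      simp only [stepG]
      congr 1
      exact act_neg' n l g f
    · refine Or.inl (Or.inl (Or.inr (Or.inr (Or.inr (Or.inl ?_)))))
      obtain ⟨n, z, l, f⟩ := y
      obtain ⟨z1, z2⟩ := z
      have hsub : z1 + 1 - 1 = z1 := add_sub_cancel_right z1 1
      simp only [stepA, backA]
      erw [hsub]
      by_cases hs : z1 = seam n <;> simp [hs]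
      exact ((T.A n l).symm_apply_apply f).symm
    · refine Or.inl (Or.inl (Or.inr (Or.inr (Or.inr (Or.inr ?_)))))
      obtain ⟨n, z, l, f⟩ := y
      obtain ⟨z1, z2⟩ := z
      have hsub : z2 + 1 - 1 = z2 := add_sub_cancel_right z2 1
      simp only [stepB, backB]
      erw [hsub]
      by_cases hs : z2 = seam n <;> simp [hs]
      exact ((T.B n l).symm_apply_apply f).symm
    · refine Or.inr ?_
      obtain ⟨n, z, l, f⟩ := y
      simp only at hv ⊢
      rw [hv]
      simp

theorem bounded_vert (T : Tower) : BoundedGeometry (Vert T) :=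
  bounded_join (vertGraph T) Vert.n (vertRoot T) (fun _ => rfl) (vert_reach_root T)
    (fun _ _ => rfl) _ vertNb vertNb_mem vertNb_card

/-- The possible neighbours in the collapsed space. -/
noncomputable def baseNb (x : Base) : Finset Base := by
  classical exact
    {⟨x.n, (x.z.1 + 1, x.z.2), x.l⟩, ⟨x.n, (x.z.1, x.z.2 + 1), x.l⟩, ⟨x.n, x.z, x.l + 1⟩,
      ⟨x.n, (x.z.1 - 1, x.z.2), x.l⟩, ⟨x.n, (x.z.1, x.z.2 - 1), x.l⟩, ⟨x.n, x.z, x.l - 1⟩}

theorem bounded_base : BoundedGeometry Base := by
  classical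
  refine bounded_join baseGraph Base.n baseRoot (fun _ => rfl) base_reach_root
    (fun _ _ => rfl) 6 baseNb ?_ fun x => Finset.card_le_six
  intro x y h
  rw [baseGraph, SimpleGraph.fromRel_adj] at h
  unfold baseNb
  simp only [Finset.mem_insert, Finset.mem_singleton]
  rcases h.2 with (rfl | rfl | rfl) | (rfl | rfl | rfl) <;> simp

theorem uniform_join [MetricSpace V] (c : V → ℕ) (o : ℕ → V)
    (hreach : ∀ x, G.Reachable x (o (c x))) (hd : ∀ x y : V, dist x y = joinDist G c o x y) :
    UniformlyDiscrete V := by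
  refine ⟨1, one_pos, fun x y hxy => ?_⟩
  rw [hd]
  simp only [joinDist]
  by_cases h : c x = c y
  · rw [if_pos h]
    have := ((hreach x).trans (h ▸ (hreach y).symm)).pos_dist_of_ne hxy
    exact_mod_cast this
  · rw [if_neg h]
    have h1 : (0 : ℝ) ≤ G.dist x (o (c x)) := Nat.cast_nonneg _
    have h2 : (0 : ℝ) ≤ G.dist y (o (c y)) := Nat.cast_nonneg _
    have h3 : (0 : ℝ) ≤ (c x : ℝ) := Nat.cast_nonneg _
    have h4 : (0 : ℝ) ≤ (c y : ℝ) := Nat.cast_nonneg _
    linarith

theorem uniform_vert (T : Tower) : UniformlyDiscrete (Vert T) :=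
  uniform_join (vertGraph T) Vert.n (vertRoot T) (vert_reach_root T) (fun _ _ => rfl)

theorem base_adj_or_eq {x y : Vert T} (h : (vertGraph T).Adj x y) :
    x.base = y.base ∨ baseGraph.Adj x.base y.base := by
  rw [vertGraph, SimpleGraph.fromRel_adj] at h
  by_cases he : x.base = y.base
  · exact Or.inl he
  refine Or.inr ?_
  rw [baseGraph, SimpleGraph.fromRel_adj]
  refine ⟨he, ?_⟩
  rcases h.2 with hr | hr
  · rcases hr with ⟨g, rfl⟩ | rfl | rfl | ⟨v, hv, rfl⟩
    · exact absurd rfl he
    · exact Or.inl (Or.inl rfl)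
    · exact Or.inl (Or.inr (Or.inl rfl))
    · exact Or.inl (Or.inr (Or.inr rfl))
  · rcases hr with ⟨g, rfl⟩ | rfl | rfl | ⟨v, hv, rfl⟩
    · exact absurd rfl he
    · exact Or.inr (Or.inl rfl)
    · exact Or.inr (Or.inr (Or.inl rfl))
    · exact Or.inr (Or.inr (Or.inr rfl))

theorem base_dist_walk {x y : Vert T} (p : (vertGraph T).Walk x y) :
    baseGraph.dist x.base y.base ≤ p.length := by
  induction p with
  | nil => simp
  | @cons u v w e p ih =>
    rw [SimpleGraph.Walk.length_cons]
    rcases base_adj_or_eq e with h | h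
    · rw [h]; omega
    · obtain ⟨q, hq⟩ : ∃ q : baseGraph.Walk v.base w.base,
          q.length = baseGraph.dist v.base w.base := by
        refine SimpleGraph.Reachable.exists_walk_length_eq_dist ?_
        clear ih e h
        induction p with
        | nil => exact SimpleGraph.Reachable.refl _
        | cons e p ih =>
          rcases base_adj_or_eq e with h | h
          · exact h ▸ ih
          · exact h.reachable.trans ih
      refine (SimpleGraph.dist_le (.cons h q)).trans ?_
      rw [SimpleGraph.Walk.length_cons]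
      omega

theorem base_dist_le (x y : Vert T) : dist x.base y.base ≤ dist x y := by
  have hG : ∀ a b : Vert T, a.n = b.n →
      baseGraph.dist a.base b.base ≤ (vertGraph T).dist a b := by
    intro a b h
    obtain ⟨p, hp⟩ :=
      ((vert_reach_root T a).trans (h ▸ (vert_reach_root T b).symm)).exists_walk_length_eq_dist
    exact hp ▸ base_dist_walk p
  change joinDist baseGraph Base.n baseRoot x.base y.base ≤
    joinDist (vertGraph T) Vert.n (vertRoot T) x y
  simp only [joinDist]
  by_cases h : x.n = y.n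
  · rw [if_pos h, if_pos (show x.base.n = y.base.n from h)]
    exact_mod_cast hG x y h
  · rw [if_neg h, if_neg (show ¬ x.base.n = y.base.n from h)]
    have h1 : (baseGraph.dist x.base (baseRoot x.n) : ℝ) ≤
        (vertGraph T).dist x (vertRoot T x.n) := by
      exact_mod_cast hG x (vertRoot T x.n) rfl
    have h2 : (baseGraph.dist y.base (baseRoot y.n) : ℝ) ≤
        (vertGraph T).dist y (vertRoot T y.n) := by
      exact_mod_cast hG y (vertRoot T y.n) rfl
    change (baseGraph.dist x.base (baseRoot x.n) : ℝ) + baseGraph.dist y.base (baseRoot y.n) +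
      ((x.n : ℝ) + y.n + 1) ≤ _
    linarith

theorem dist_le_one_of_edge {x y : Vert T} (h : edgeRel x y) : dist x y ≤ 1 := by
  by_cases hxy : x = y
  · simp [hxy]
  have hadj : (vertGraph T).Adj x y := (SimpleGraph.fromRel_adj _ _ _).2 ⟨hxy, Or.inl h⟩
  have hn : x.n = y.n := by
    rcases h with ⟨g, rfl⟩ | rfl | rfl | ⟨v, hv, rfl⟩ <;> rfl
  change joinDist (vertGraph T) Vert.n (vertRoot T) x y ≤ 1
  simp only [joinDist]
  rw [if_pos hn, SimpleGraph.dist_eq_one_iff_adj.2 hadj]
  simp

theorem dist_stepG (g : Gen) (x : Vert T) : dist x (stepG g x) ≤ 1 :=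
  dist_le_one_of_edge (Or.inl ⟨g, rfl⟩)

end Geom

end VP212
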