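import Vale.Agent.P212.Base.Ops
import Vale.Agent.P212.Geom.Graph

/-!
P212, geometry: the uniform measures on nearby fibres couple at bounded distance.
-/

namespace VP212

namespace Geom

variable {T : Tower}

/-- The vertex above `u` with fibre coordinate `a`. -/
def vtx (T : Tower) (u : Base) (a : T.Fib u.n u.l) : Vert T := ⟨u.n, u.z, u.l, a⟩

theorem couple_mono {u v : Base} {s t : ℝ} (h : FibresCouple T u v s) (hst : s ≤ t) :
    FibresCouple T u v t := by
  obtain ⟨c, h0, h1, h2, h3⟩ := h
  exact ⟨c, h0, h1, h2, fun a b hab => (h3 a b hab).trans hst⟩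

theorem couple_symm {u v : Base} {s : ℝ} (h : FibresCouple T u v s) : FibresCouple T v u s := by
  obtain ⟨c, h0, h1, h2, h3⟩ := h
  exact ⟨fun b a => c a b, fun b a => h0 a b, h2, h1,
    fun b a hab => (dist_comm _ _).trans_le (h3 a b hab)⟩

theorem couple_trans {u v w : Base} {s t : ℝ} (h : FibresCouple T u v s)
    (h' : FibresCouple T v w t) : FibresCouple T u w (s + t) := by
  obtain ⟨c, h0, h1, h2, h3⟩ := h
  obtain ⟨c', h0', h1', h2', h3'⟩ := h'
  have hN : (Fintype.card (T.Fib v.n v.l) : ℝ) ≠ 0 := Nat.cast_ne_zero.2 Fintype.card_ne_zero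
  refine ⟨fun a d => ∑ b, c a b * c' b d * (Fintype.card (T.Fib v.n v.l) : ℝ), ?_, ?_, ?_, ?_⟩
  · exact fun a d => Finset.sum_nonneg fun b _ =>
      mul_nonneg (mul_nonneg (h0 a b) (h0' b d)) (Nat.cast_nonneg _)
  · intro a
    rw [Finset.sum_comm, ← h1 a]
    refine Finset.sum_congr rfl fun b _ => ?_
    rw [← Finset.sum_mul, ← Finset.mul_sum, h1']
    field_simp
  · intro d
    rw [Finset.sum_comm, ← h2' d]
    refine Finset.sum_congr rfl fun b _ => ?_
    rw [← Finset.sum_mul, ← Finset.sum_mul, h2]
    field_simp
  · intro a d had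
    obtain ⟨b, -, hb⟩ := Finset.exists_ne_zero_of_sum_ne_zero had
    exact (dist_triangle _ (vtx T v b) _).trans
      (add_le_add (h3 a b (left_ne_zero_of_mul (left_ne_zero_of_mul hb)))
        (h3' b d (right_ne_zero_of_mul (left_ne_zero_of_mul hb))))

theorem couple_of_map {u v : Base} {s : ℝ} (f : T.Fib v.n v.l → T.Fib u.n u.l)
    (hreg : ∀ a a', Nat.card {b // f b = a} = Nat.card {b // f b = a'})
    (hd : ∀ b, dist (vtx T u (f b)) (vtx T v b) ≤ s) : FibresCouple T u v s := by
  classical
  let N : ℝ := (Fintype.card (T.Fib v.n v.l) : ℝ)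
  refine ⟨fun a b => if f b = a then 1 / N else 0, ?_, ?_, ?_, ?_⟩
  · intro a b
    dsimp only
    split
    · positivity
    · exact le_rfl
  · intro a
    have hcard : ∀ a', (Finset.univ.filter fun b => f b = a').card =
        (Finset.univ.filter fun b => f b = a).card := by
      intro a'
      have := hreg a' a
      rwa [Nat.card_eq_fintype_card, Nat.card_eq_fintype_card, Fintype.card_subtype,
        Fintype.card_subtype] at this
    have hsum : Fintype.card (T.Fib v.n v.l) =
        Fintype.card (T.Fib u.n u.l) * (Finset.univ.filter fun b => f b = a).card := by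
      rw [← Finset.card_univ,
        Finset.card_eq_sum_card_fiberwise (f := f) (t := Finset.univ)
          (fun b _ => Finset.mem_univ _),
        Finset.sum_congr rfl (fun a' _ => hcard a'), Finset.sum_const, Finset.card_univ,
        smul_eq_mul]
    rw [Finset.sum_ite, Finset.sum_const_zero, add_zero, Finset.sum_const, nsmul_eq_mul]
    have hu : (Fintype.card (T.Fib u.n u.l) : ℝ) ≠ 0 := Nat.cast_ne_zero.2 Fintype.card_ne_zero
    have hF : ((Finset.univ.filter fun b => f b = a).card : ℝ) ≠ 0 := by
      intro hz
      rw [Nat.cast_eq_zero] at hz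
      rw [hz, mul_zero] at hsum
      exact Fintype.card_ne_zero hsum
    simp only [N]
    rw [hsum, Nat.cast_mul]
    field_simp
  · intro b
    rw [Finset.sum_ite_eq, if_pos (Finset.mem_univ _)]
  · intro a b hab
    by_cases h : f b = a
    · subst h
      exact hd b
    · exact absurd (if_neg h) hab

theorem couple_refl (u : Base) : FibresCouple T u u 0 :=
  couple_of_map id (fun a a' => by
    rw [Nat.card_eq_fintype_card, Nat.card_eq_fintype_card]
    simp) fun b => (dist_self _).le

theorem regular_of_bijective {α β : Type} (f : α → β) (hf : Function.Bijective f) (a a' : β) :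
    Nat.card {b // f b = a} = Nat.card {b // f b = a'} := by
  have h : ∀ a, Nat.card {b // f b = a} = 1 := by
    intro a
    refine Nat.card_eq_one_iff_exists.2 ?_
    obtain ⟨b, hb⟩ := hf.2 a
    exact ⟨⟨b, hb⟩, fun c => Subtype.ext (hf.1 (c.2.trans hb.symm))⟩
  rw [h, h]

theorem couple_rel {x y : Base} (h : baseRel x y) : FibresCouple T x y 1 := by
  obtain ⟨n, z, l⟩ := x
  rcases h with rfl | rfl | rfl
  · refine couple_symm (couple_of_map
      (fun a : T.Fib n l => if z.1 = seam n then T.A n l a else a) ?_ fun b => ?_)
    · refine regular_of_bijective _ ?_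
      by_cases hz : z.1 = seam n <;> simp only [hz, if_true, if_false]
      · exact (T.A n l).bijective
      · exact Function.bijective_id
    · rw [dist_comm]
      exact dist_le_one_of_edge (x := vtx T ⟨n, z, l⟩ b) (Or.inr (Or.inl rfl))
  · refine couple_symm (couple_of_map
      (fun a : T.Fib n l => if z.2 = seam n then T.B n l a else a) ?_ fun b => ?_)
    · refine regular_of_bijective _ ?_
      by_cases hz : z.2 = seam n <;> simp only [hz, if_true, if_false]
      · exact (T.B n l).bijective
      · exact Function.bijective_id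
    · rw [dist_comm]
      exact dist_le_one_of_edge (x := vtx T ⟨n, z, l⟩ b) (Or.inr (Or.inr (Or.inl rfl)))
  · exact couple_of_map (T.par n l) (T.par_regular n l) fun b =>
      dist_le_one_of_edge (x := vtx T ⟨n, z, l⟩ (T.par n l b))
        (Or.inr (Or.inr (Or.inr ⟨b, rfl, rfl⟩)))

theorem couple_walk {x y : Base} (p : baseGraph.Walk x y) :
    FibresCouple T x y (p.length : ℝ) := by
  induction p with
  | nil => simpa using couple_refl _
  | @cons u v w e p ih =>
    have he := e
    rw [baseGraph, SimpleGraph.fromRel_adj] at he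
    have h1 : FibresCouple T u v 1 := he.2.elim couple_rel fun h => couple_symm (couple_rel h)
    refine couple_mono (couple_trans h1 ih) ?_
    rw [SimpleGraph.Walk.length_cons]
    push_cast
    linarith

theorem couple_dist {x y : Base} (h : baseGraph.Reachable x y) :
    FibresCouple T x y (baseGraph.dist x y : ℝ) := by
  obtain ⟨p, hp⟩ := h.exists_walk_length_eq_dist
  rw [← hp]
  exact couple_walk p

theorem couple_roots {n m : ℕ} (h : n ≠ m) :
    FibresCouple T (baseRoot n) (baseRoot m) ((n : ℝ) + m + 1) := by
  have : Subsingleton (T.Fib (baseRoot m).n (baseRoot m).l) := T.root m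
  have : Subsingleton (T.Fib (baseRoot n).n (baseRoot n).l) := T.root n
  refine couple_of_map (fun _ => Classical.arbitrary _) (fun a a' => by
    rw [Subsingleton.elim a a']) fun b => ?_
  have hb : vtx T (baseRoot m) b = vertRoot T m := by
    unfold vtx vertRoot
    congr 1
    exact (T.root m).elim _ _
  have ha : ∀ a, vtx T (baseRoot n) a = vertRoot T n := by
    intro a
    unfold vtx vertRoot
    congr 1
    exact (T.root n).elim _ _
  rw [hb, ha]
  change joinDist (vertGraph T) Vert.n (vertRoot T) (vertRoot T n) (vertRoot T m) ≤ _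
  simp only [joinDist]
  rw [if_neg (show ¬ (vertRoot T n).n = (vertRoot T m).n from h)]
  erw [SimpleGraph.dist_self, SimpleGraph.dist_self]
  simp [vertRoot]

theorem couple_base (u v : Base) : FibresCouple T u v (dist u v) := by
  change FibresCouple T u v (joinDist baseGraph Base.n baseRoot u v)
  simp only [joinDist]
  by_cases h : u.n = v.n
  · rw [if_pos h]
    exact couple_dist ((base_reach_root u).trans (h ▸ (base_reach_root v).symm))
  · rw [if_neg h]
    refine couple_mono (couple_trans (couple_trans (couple_dist (base_reach_root u))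
      (couple_roots h)) (couple_symm (couple_dist (base_reach_root v)))) ?_
    linarith

end Geom

end VP212
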