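import Vale.Agent.P212.Base.Vertex

/-!
P212, geometry: words of letters along the levels of a tower.
-/

namespace VP212

namespace Geom

variable {T : Tower} {n : ℕ}

/-- The word in a fibre. -/
abbrev wd (T : Tower) (n l : ℕ) (w : List Gen) : Equiv.Perm (T.Fib n l) :=
  wordPerm (T.act n l) w

theorem wd_nil (l : ℕ) (x : T.Fib n l) : wd T n l [] x = x := rfl

theorem wd_append (l : ℕ) (u w : List Gen) (x : T.Fib n l) :
    wd T n l (u ++ w) x = wd T n l u (wd T n l w x) := by
  simp [wordPerm, List.map_append, List.prod_append]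

theorem wd_cons (l : ℕ) (g : Gen) (w : List Gen) (x : T.Fib n l) :
    wd T n l (g :: w) x = T.act n l g (wd T n l w x) := by
  simp [wordPerm]

theorem wd_single (l : ℕ) (g : Gen) (x : T.Fib n l) : wd T n l [g] x = T.act n l g x := by
  simp [wordPerm]

theorem act_zero (l : ℕ) (i : Fin 3) : T.act n l (i, 0) = 1 := by
  have h := T.act_add n l i 0 0
  rw [add_zero] at h
  exact left_eq_mul.1 h

theorem act_neg (l : ℕ) (i : Fin 3) (a : Coef) (x : T.Fib n l) :
    T.act n l (i, -a) (T.act n l (i, a) x) = x := by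
  rw [← Equiv.Perm.mul_apply, ← T.act_add, neg_add_cancel, act_zero, Equiv.Perm.one_apply]

theorem commute_A (l : ℕ) (w : List Gen) : Commute (T.A n l) (wd T n l w) := by
  refine Commute.list_prod_right _ _ fun p hp => ?_
  obtain ⟨g, -, rfl⟩ := List.mem_map.1 hp
  exact T.A_act n l g

theorem commute_B (l : ℕ) (w : List Gen) : Commute (T.B n l) (wd T n l w) := by
  refine Commute.list_prod_right _ _ fun p hp => ?_
  obtain ⟨g, -, rfl⟩ := List.mem_map.1 hp
  exact T.B_act n l g

/-- `y` is the image of `x` at the lower level `l0`. -/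
inductive Anc (T : Tower) (n : ℕ) :
    (l : ℕ) → T.Fib n l → (l0 : ℕ) → T.Fib n l0 → Prop
  | refl (l : ℕ) (x : T.Fib n l) : Anc T n l x l x
  | step {l l0 : ℕ} {x : T.Fib n (l + 1)} {y : T.Fib n l0} :
      Anc T n l (T.par n l x) l0 y → Anc T n (l + 1) x l0 y

theorem Anc.le {l l0 : ℕ} {x : T.Fib n l} {y : T.Fib n l0} (h : Anc T n l x l0 y) : l0 ≤ l := by
  induction h with
  | refl => exact le_rfl
  | step _ ih => omega

theorem anc_exists {l l0 : ℕ} (h : l0 ≤ l) : ∀ x : T.Fib n l, ∃ y, Anc T n l x l0 y := by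
  induction l, h using Nat.le_induction with
  | base => exact fun x => ⟨x, .refl _ x⟩
  | succ l _ ih =>
    intro x
    obtain ⟨y, hy⟩ := ih (T.par n l x)
    exact ⟨y, .step hy⟩

theorem Anc.unique {l l0 : ℕ} {x : T.Fib n l} {y : T.Fib n l0} (h : Anc T n l x l0 y) :
    ∀ {y'}, Anc T n l x l0 y' → y' = y := by
  induction h with
  | refl l x =>
    intro y' h'
    cases h' with
    | refl => rfl
    | step h'' => have := h''.le; omega
  | step h ih =>
    intro y' h'
    cases h' with
    | refl => have := h.le; omega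
    | step h'' => exact ih h''

theorem Anc.mapA {l l0 : ℕ} {x : T.Fib n l} {y : T.Fib n l0} (h : Anc T n l x l0 y) :
    Anc T n l (T.A n l x) l0 (T.A n l0 y) := by
  induction h with
  | refl => exact .refl _ _
  | step _ ih => exact .step (by rwa [T.par_A])

theorem Anc.mapB {l l0 : ℕ} {x : T.Fib n l} {y : T.Fib n l0} (h : Anc T n l x l0 y) :
    Anc T n l (T.B n l x) l0 (T.B n l0 y) := by
  induction h with
  | refl => exact .refl _ _
  | step _ ih => exact .step (by rwa [T.par_B])

theorem Anc.mapA_inv {l l0 : ℕ} {x x' : T.Fib n l} {y : T.Fib n l0} (h : Anc T n l x l0 y)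
    (hx : T.A n l x' = x) : Anc T n l x' l0 ((T.A n l0)⁻¹ y) := by
  obtain ⟨y', hy'⟩ := anc_exists h.le x'
  have h2 := hy'.mapA
  rw [hx] at h2
  have h3 : T.A n l0 y' = y := h.unique h2
  rw [← h3, Equiv.Perm.coe_inv, Equiv.symm_apply_apply]
  exact hy'

theorem Anc.mapB_inv {l l0 : ℕ} {x x' : T.Fib n l} {y : T.Fib n l0} (h : Anc T n l x l0 y)
    (hx : T.B n l x' = x) : Anc T n l x' l0 ((T.B n l0)⁻¹ y) := by
  obtain ⟨y', hy'⟩ := anc_exists h.le x'
  have h2 := hy'.mapB
  rw [hx] at h2
  have h3 : T.B n l0 y' = y := h.unique h2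
  rw [← h3, Equiv.Perm.coe_inv, Equiv.symm_apply_apply]
  exact hy'

theorem word_down (l : ℕ) (w : List Gen) :
    ∃ w' : List Gen, w'.length ≤ (T.bound + 1) * w.length ∧
      ∀ x, T.par n l (wd T n (l + 1) w x) = wd T n l w' (T.par n l x) := by
  induction w with
  | nil => exact ⟨[], by simp, fun x => rfl⟩
  | cons g w ih =>
    obtain ⟨w', hw', hx'⟩ := ih
    obtain ⟨u, hu, hux⟩ := T.down n l g
    refine ⟨u ++ w', ?_, fun x => ?_⟩
    · simp only [List.length_append, List.length_cons, Nat.mul_succ]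
      omega
    · rw [wd_cons, hux, hx', ← wd_append]

theorem word_up (l : ℕ) (w : List Gen) :
    ∃ w' : List Gen, w'.length ≤ (T.bound + 1) * w.length ∧
      ∀ x, T.par n l (wd T n (l + 1) w' x) = wd T n l w (T.par n l x) := by
  induction w with
  | nil => exact ⟨[], by simp, fun x => rfl⟩
  | cons g w ih =>
    obtain ⟨w', hw', hx'⟩ := ih
    obtain ⟨u, hu, hux⟩ := T.up n l g
    refine ⟨u ++ w', ?_, fun x => ?_⟩
    · simp only [List.length_append, List.length_cons, Nat.mul_succ]
      omega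
    · rw [wd_append, hux, hx', wd_cons]

theorem Anc.word {l l0 : ℕ} {x : T.Fib n l} {y : T.Fib n l0} (h : Anc T n l x l0 y) :
    ∀ w : List Gen, ∃ w' : List Gen, w'.length ≤ (T.bound + 1) ^ (l - l0) * w.length ∧
      Anc T n l (wd T n l w x) l0 (wd T n l0 w' y) := by
  induction h with
  | refl => exact fun w => ⟨w, by simp, .refl _ _⟩
  | @step l l0 x y h ih =>
    intro w
    obtain ⟨v, hv, hvx⟩ := word_down (T := T) (n := n) l w
    obtain ⟨w', hw', hanc⟩ := ih v
    refine ⟨w', hw'.trans ?_, .step (by rwa [hvx])⟩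
    rw [Nat.succ_sub h.le, pow_succ, mul_assoc]
    exact Nat.mul_le_mul_left _ hv

theorem Anc.act {l l0 : ℕ} {x : T.Fib n l} {y : T.Fib n l0} (h : Anc T n l x l0 y) (g : Gen) :
    ∃ w : List Gen, w.length ≤ (T.bound + 1) ^ (l - l0) ∧
      Anc T n l (T.act n l g x) l0 (wd T n l0 w y) := by
  obtain ⟨w, hw, ha⟩ := h.word [g]
  exact ⟨w, by simpa using hw, by simpa [wd_single] using ha⟩

/-- The cost of lifting a word through `j` levels. -/
def liftCost (B : ℕ) (L : ℕ) : ℕ → ℕ
  | 0 => L
  | j + 1 => (B + 1) * liftCost B L j + B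

theorem liftCost_mono {B L L' j j' : ℕ} (hL : L ≤ L') (hj : j ≤ j') :
    liftCost B L j ≤ liftCost B L' j' := by
  have h1 : ∀ j, liftCost B L j ≤ liftCost B L' j := by
    intro j
    induction j with
    | zero => exact hL
    | succ j ih => simp only [liftCost]; gcongr
  have h2 : Monotone (liftCost B L') := by
    refine monotone_nat_of_le_succ fun j => ?_
    simp only [liftCost]
    nlinarith
  exact (h1 j).trans (h2 hj)

theorem Anc.lift {l l0 : ℕ} {x : T.Fib n l} {y : T.Fib n l0} (h : Anc T n l x l0 y) :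
    ∀ {x' : T.Fib n l} {y' : T.Fib n l0} (w : List Gen), Anc T n l x' l0 y' →
      wd T n l0 w y = y' →
      ∃ w' : List Gen, w'.length ≤ liftCost T.bound w.length (l - l0) ∧ wd T n l w' x = x' := by
  induction h with
  | refl l x =>
    intro x' y' w h' hw
    cases h' with
    | refl => exact ⟨w, by simp [liftCost], hw⟩
    | step h'' => have := h''.le; omega
  | @step l l0 x y h ih =>
    intro x' y' w h' hw
    cases h' with
    | refl => have := h.le; omega
    | step h'' =>
      obtain ⟨W, hW, hWx⟩ := ih w h'' hw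
      obtain ⟨U, hU, hUx⟩ := word_up (T := T) (n := n) l W
      obtain ⟨s, hs, hsx⟩ := T.shuffle n l (wd T n (l + 1) U x) x' ((hUx x).trans hWx)
      refine ⟨s ++ U, ?_, (wd_append _ _ _ _).trans hsx⟩
      rw [Nat.succ_sub h.le, List.length_append, liftCost]
      have := hU.trans (Nat.mul_le_mul_left _ hW)
      omega

theorem transitive (l : ℕ) : ∀ x x' : T.Fib n l, ∃ w : List Gen, wd T n l w x = x' := by
  induction l with
  | zero => exact fun x x' => ⟨[], (T.root n).elim _ _⟩
  | succ l ih =>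
    intro x x'
    obtain ⟨W, hW⟩ := ih (T.par n l x) (T.par n l x')
    obtain ⟨U, -, hU⟩ := word_up (T := T) (n := n) l W
    obtain ⟨s, -, hs⟩ := T.shuffle n l (wd T n (l + 1) U x) x' ((hU x).trans hW)
    exact ⟨s ++ U, (wd_append _ _ _ _).trans hs⟩

theorem plain_word {l : ℕ} (hl : T.top n ≤ l) (w : List Gen) (x : T.Fib n (l + 1)) :
    T.par n l (wd T n (l + 1) w x) = wd T n l w (T.par n l x) := by
  induction w with
  | nil => rfl
  | cons g w ih => rw [wd_cons, wd_cons, (T.plain n l hl).2, ih]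

theorem bounded_transitive (n : ℕ) :
    ∃ K : ℕ, ∀ (l : ℕ) (x x' : T.Fib n l), ∃ w : List Gen, w.length ≤ K ∧ wd T n l w x = x' := by
  classical
  let len : ∀ l, T.Fib n l → T.Fib n l → ℕ := fun l x x' => (transitive l x x').choose.length
  refine ⟨(Finset.range (T.top n + 1)).sup fun l =>
    (Finset.univ : Finset (T.Fib n l × T.Fib n l)).sup fun p => len l p.1 p.2, fun l => ?_⟩
  induction l with
  | zero =>
    exact fun x x' => ⟨[], Nat.zero_le _, (T.root n).elim _ _⟩
  | succ l ih =>
    intro x x'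
    by_cases hl : l + 1 ≤ T.top n
    · refine ⟨_, ?_, (transitive (l + 1) x x').choose_spec⟩
      refine le_trans ?_ (Finset.le_sup (Finset.mem_range.2 (Nat.lt_succ_of_le hl)))
      exact Finset.le_sup (f := fun p : T.Fib n (l + 1) × T.Fib n (l + 1) => len (l + 1) p.1 p.2)
        (Finset.mem_univ (x, x'))
    · have hl' : T.top n ≤ l := by omega
      obtain ⟨w, hw, hwx⟩ := ih (T.par n l x) (T.par n l x')
      refine ⟨w, hw, (T.plain n l hl').1.injective ?_⟩
      rw [plain_word hl', hwx]

end Geom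

end VP212
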