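import Vale.Agent.P212.Base.Metric
import Vale.Agent.P212.Geom.Words

/-!
P212, geometry: short walks above a common base point are short words.
-/

namespace VP212

namespace Geom

variable {T : Tower}

theorem val_succ_seam (n : ℕ) {z : ZMod (n + 3)} (h : z = seam n) :
    ((z + 1).val : ℤ) = (z.val : ℤ) + 1 - ((n : ℤ) + 3) := by
  subst h
  have h1 : (seam n : ZMod (n + 3)) + 1 = 0 := neg_add_cancel 1
  have h2 : (seam n : ZMod (n + 3)).val = n + 2 := ZMod.val_neg_one (n + 2)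
  rw [h1, h2, ZMod.val_zero]
  push_cast
  ring

theorem val_succ (n : ℕ) {z : ZMod (n + 3)} (h : z ≠ seam n) :
    ((z + 1).val : ℤ) = (z.val : ℤ) + 1 := by
  have hlt := ZMod.val_lt z
  have hone : (1 : ZMod (n + 3)).val = 1 := ZMod.val_one'' (by omega)
  have hne : z.val ≠ n + 2 := fun hv => h (ZMod.val_injective _ (by
    rw [hv]; exact (ZMod.val_neg_one (n + 2)).symm))
  rw [ZMod.val_add_of_lt (by omega), hone]
  push_cast
  ring

/-- The position of `v` along a walk of length `j` starting at level `lx` over the grid point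
`zx`, read off at level `l0`, where it starts from `y0`. -/
def Good (T : Tower) (n : ℕ) (zx : Grid n) (lx l0 : ℕ) (y0 : T.Fib n l0) (B j : ℕ)
    (v : Vert T) : Prop :=
  ∃ (z : Grid n) (l : ℕ) (f : T.Fib n l), v = ⟨n, z, l, f⟩ ∧ l ≤ lx + j ∧ lx ≤ l + j ∧
    ∃ (α β : ℤ) (w : List Gen), w.length ≤ j * B ∧
      |(z.1.val : ℤ) + α * ((n : ℤ) + 3) - zx.1.val| ≤ (j : ℤ) ∧
      |(z.2.val : ℤ) + β * ((n : ℤ) + 3) - zx.2.val| ≤ (j : ℤ) ∧
      Anc T n l f l0 (wd T n l0 w ((T.A n l0 ^ α) ((T.B n l0 ^ β) y0)))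

variable {n : ℕ} {zx : Grid n} {lx l0 : ℕ} {y0 : T.Fib n l0} {B j k : ℕ}

theorem good_letter (hk : j < k) (hk0 : lx ≤ l0 + k)
    (hB : (T.bound + 1) ^ (2 * k) ≤ B) {x : Vert T}
    (h : Good T n zx lx l0 y0 B j x) (g : Gen) :
    Good T n zx lx l0 y0 B (j + 1) (stepG g x) := by
  obtain ⟨z, l, f, rfl, hl1, hl2, α, β, w, hw, hα, hβ, hanc⟩ := h
  obtain ⟨u, hu, hua⟩ := hanc.act g
  have hlen : u.length ≤ B := hu.trans ((Nat.pow_le_pow_right (by omega) (by omega)).trans hB)
  refine ⟨z, l, _, rfl, by omega, by omega, α, β, u ++ w, ?_, hα.trans (by omega),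
    hβ.trans (by omega), by rwa [wd_append]⟩
  rw [List.length_append, Nat.succ_mul]
  omega

theorem good_A {v : Vert T} (h : Good T n zx lx l0 y0 B j v) : Good T n zx lx l0 y0 B (j + 1) (stepA v) := by
  obtain ⟨z, l, f, rfl, hl1, hl2, α, β, w, hw, hα, hβ, hanc⟩ := h
  by_cases hz : z.1 = seam n
  · refine ⟨(z.1 + 1, z.2), l, T.A n l f, by simp [stepA, hz], by omega, by omega, α + 1, β, w,
      hw.trans (Nat.mul_le_mul_right _ (by omega)), ?_, hβ.trans (by omega), ?_⟩
    · rw [abs_le] at hα ⊢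
      simp only [val_succ_seam n hz, add_mul, one_mul]
      omega
    · have h := hanc.mapA
      rw [← Equiv.Perm.mul_apply, (commute_A l0 w).eq, Equiv.Perm.mul_apply,
        ← Equiv.Perm.mul_apply (T.A n l0), ← zpow_one_add, add_comm] at h
      exact h
  · refine ⟨(z.1 + 1, z.2), l, f, by simp [stepA, hz], by omega, by omega, α, β, w,
      hw.trans (Nat.mul_le_mul_right _ (by omega)), ?_, hβ.trans (by omega), hanc⟩
    rw [abs_le] at hα ⊢
    simp only [val_succ n hz]
    omega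

theorem good_B {v : Vert T} (h : Good T n zx lx l0 y0 B j v) : Good T n zx lx l0 y0 B (j + 1) (stepB v) := by
  obtain ⟨z, l, f, rfl, hl1, hl2, α, β, w, hw, hα, hβ, hanc⟩ := h
  by_cases hz : z.2 = seam n
  · refine ⟨(z.1, z.2 + 1), l, T.B n l f, by simp [stepB, hz], by omega, by omega, α, β + 1, w,
      hw.trans (Nat.mul_le_mul_right _ (by omega)), hα.trans (by omega), ?_, ?_⟩
    · rw [abs_le] at hβ ⊢
      simp only [val_succ_seam n hz, add_mul, one_mul]
      omega
    · have h := hanc.mapB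
      have hc : Commute (T.B n l0) (wd T n l0 w * T.A n l0 ^ α) :=
        (commute_B l0 w).mul_right ((T.AB n l0).symm.zpow_right α)
      rw [← Equiv.Perm.mul_apply (wd T n l0 w), ← Equiv.Perm.mul_apply, hc.eq,
        Equiv.Perm.mul_apply, Equiv.Perm.mul_apply, ← Equiv.Perm.mul_apply (T.B n l0),
        ← zpow_one_add, add_comm] at h
      exact h
  · refine ⟨(z.1, z.2 + 1), l, f, by simp [stepB, hz], by omega, by omega, α, β, w,
      hw.trans (Nat.mul_le_mul_right _ (by omega)), hα.trans (by omega), ?_, hanc⟩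
    rw [abs_le] at hβ ⊢
    simp only [val_succ n hz]
    omega

theorem good_A_back {v : Vert T} (h : Good T n zx lx l0 y0 B j (stepA v)) :
    Good T n zx lx l0 y0 B (j + 1) v := by
  obtain ⟨n', z, l, f⟩ := v
  obtain ⟨z', l', f', he, hl1, hl2, α, β, w, hw, hα, hβ, hanc⟩ := h
  simp only [stepA, Vert.mk.injEq] at he
  obtain ⟨rfl, he⟩ := he
  simp only [heq_eq_eq] at he
  obtain ⟨rfl, rfl, he⟩ := he
  replace he := eq_of_heq he
  by_cases hz : z.1 = seam n'
  · rw [if_pos hz] at he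
    refine ⟨z, l, f, rfl, by omega, by omega, α - 1, β, w,
      hw.trans (Nat.mul_le_mul_right _ (by omega)), ?_, hβ.trans (by omega), ?_⟩
    · rw [abs_le] at hα ⊢
      simp only [val_succ_seam n' hz, sub_mul, one_mul] at hα ⊢
      omega
    · have h := hanc.mapA_inv he
      rw [← Equiv.Perm.mul_apply (T.A n' l0)⁻¹, ((commute_A l0 w).inv_left).eq,
        Equiv.Perm.mul_apply, ← Equiv.Perm.mul_apply (T.A n' l0)⁻¹, ← zpow_neg_one, ← zpow_add,
        show -1 + α = α - 1 by ring] at h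
      exact h
  · rw [if_neg hz] at he
    subst he
    refine ⟨z, l, _, rfl, by omega, by omega, α, β, w,
      hw.trans (Nat.mul_le_mul_right _ (by omega)), ?_, hβ.trans (by omega), hanc⟩
    rw [abs_le] at hα ⊢
    simp only [val_succ n' hz] at hα
    omega

theorem good_B_back {v : Vert T} (h : Good T n zx lx l0 y0 B j (stepB v)) :
    Good T n zx lx l0 y0 B (j + 1) v := by
  obtain ⟨n', z, l, f⟩ := v
  obtain ⟨z', l', f', he, hl1, hl2, α, β, w, hw, hα, hβ, hanc⟩ := h
  simp only [stepB, Vert.mk.injEq] at he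
  obtain ⟨rfl, he⟩ := he
  simp only [heq_eq_eq] at he
  obtain ⟨rfl, rfl, he⟩ := he
  replace he := eq_of_heq he
  by_cases hz : z.2 = seam n'
  · rw [if_pos hz] at he
    refine ⟨z, l, f, rfl, by omega, by omega, α, β - 1, w,
      hw.trans (Nat.mul_le_mul_right _ (by omega)), hα.trans (by omega), ?_, ?_⟩
    · rw [abs_le] at hβ ⊢
      simp only [val_succ_seam n' hz, sub_mul, one_mul] at hβ ⊢
      omega
    · have h := hanc.mapB_inv he
      have hc : Commute (T.B n' l0)⁻¹ (wd T n' l0 w * T.A n' l0 ^ α) :=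
        ((commute_B l0 w).mul_right ((T.AB n' l0).symm.zpow_right α)).inv_left
      rw [← Equiv.Perm.mul_apply (wd T n' l0 w), ← Equiv.Perm.mul_apply, hc.eq,
        Equiv.Perm.mul_apply, Equiv.Perm.mul_apply, ← Equiv.Perm.mul_apply (T.B n' l0)⁻¹,
        ← zpow_neg_one, ← zpow_add, show -1 + β = β - 1 by ring] at h
      exact h
  · rw [if_neg hz] at he
    subst he
    refine ⟨z, l, _, rfl, by omega, by omega, α, β, w,
      hw.trans (Nat.mul_le_mul_right _ (by omega)), hα.trans (by omega), ?_, hanc⟩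
    rw [abs_le] at hβ ⊢
    simp only [val_succ n' hz] at hβ
    omega

theorem good_up {x : Vert T} (h : Good T n zx lx l0 y0 B j x) (v : T.Fib x.n (x.l + 1))
    (hv : T.par x.n x.l v = x.w) :
    Good T n zx lx l0 y0 B (j + 1) ⟨x.n, x.z, x.l + 1, v⟩ := by
  obtain ⟨z, l, f, rfl, hl1, hl2, α, β, w, hw, hα, hβ, hanc⟩ := h
  exact ⟨z, l + 1, v, rfl, by omega, by omega, α, β, w,
    hw.trans (Nat.mul_le_mul_right _ (by omega)), hα.trans (by omega), hβ.trans (by omega),
    .step (hv ▸ hanc)⟩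

theorem good_down {x : Vert T} {v : T.Fib x.n (x.l + 1)} (hk : j + 1 ≤ k)
    (hk0 : l0 + k ≤ lx ∨ l0 = 0) (hv : T.par x.n x.l v = x.w)
    (h : Good T n zx lx l0 y0 B j ⟨x.n, x.z, x.l + 1, v⟩) :
    Good T n zx lx l0 y0 B (j + 1) x := by
  obtain ⟨n', z, l, f⟩ := x
  obtain ⟨z', l', f', he, hl1, hl2, α, β, w, hw, hα, hβ, hanc⟩ := h
  simp only [Vert.mk.injEq] at he
  obtain ⟨rfl, he⟩ := he
  simp only [heq_eq_eq] at he
  obtain ⟨rfl, rfl, he⟩ := he
  replace he := eq_of_heq he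
  subst he
  obtain ⟨q, hq⟩ := anc_exists (T := T) (show l0 ≤ l by omega) f
  have hq' : Anc T n' (l + 1) v l0 q := .step (by simp only at hv; rwa [hv])
  exact ⟨z, l, f, rfl, by omega, by omega, α, β, w, hw.trans (Nat.mul_le_mul_right _ (by omega)),
    hα.trans (by omega), hβ.trans (by omega), hanc.unique hq' ▸ hq⟩

theorem stepG_back (g : Gen) (x : Vert T) : stepG (g.1, -g.2) (stepG g x) = x := by
  obtain ⟨n, z, l, f⟩ := x
  simp only [stepG]
  congr 1
  exact act_neg l g.1 g.2 f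

theorem good_edge (hk : j + 1 ≤ k) (hk0 : lx ≤ l0 + k) (hk1 : l0 + k ≤ lx ∨ l0 = 0)
    (hB : (T.bound + 1) ^ (2 * k) ≤ B) {x y : Vert T} (h : Good T n zx lx l0 y0 B j x)
    (he : (vertGraph T).Adj x y) : Good T n zx lx l0 y0 B (j + 1) y := by
  rw [vertGraph, SimpleGraph.fromRel_adj] at he
  rcases he.2 with hr | hr
  · rcases hr with ⟨g, rfl⟩ | rfl | rfl | ⟨v, hv, rfl⟩
    · exact good_letter (by omega) hk0 hB h g
    · exact good_A h
    · exact good_B h
    · exact good_up h v hv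
  · rcases hr with ⟨g, hx⟩ | hx | hx | ⟨v, hv, hx⟩
    · have hy : y = stepG (g.1, -g.2) x := by rw [hx, stepG_back]
      rw [hy]
      exact good_letter (by omega) hk0 hB h _
    · exact good_A_back (hx ▸ h)
    · exact good_B_back (hx ▸ h)
    · exact good_down hk hk1 hv (hx ▸ h)

theorem good_walk (hk0 : lx ≤ l0 + k) (hk1 : l0 + k ≤ lx ∨ l0 = 0)
    (hB : (T.bound + 1) ^ (2 * k) ≤ B) {u v : Vert T} (p : (vertGraph T).Walk u v) :
    ∀ j, j + p.length ≤ k → Good T n zx lx l0 y0 B j u →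
      Good T n zx lx l0 y0 B (j + p.length) v := by
  induction p with
  | nil => exact fun j _ h => h
  | cons e p ih =>
    intro j hj h
    rw [SimpleGraph.Walk.length_cons] at hj ⊢
    have := ih (j + 1) (by omega) (good_edge (by omega) hk0 hk1 hB h e)
    rwa [Nat.add_right_comm, Nat.add_assoc] at this

theorem winding_eq_zero {L : ℤ} {a m : ℤ} {k : ℕ} (h : |a + m * L - a| ≤ (k : ℤ))
    (hk : (k : ℤ) < L) : m = 0 := by
  rw [add_sub_cancel_left, abs_mul] at h
  by_contra hm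
  have h1 : 1 ≤ |m| := Int.one_le_abs hm
  have h2 : L ≤ |L| := le_abs_self L
  nlinarith [abs_nonneg L]

/-- Two nearby points over the same base point differ by a bounded word. -/
theorem word_of_walk (T : Tower) (k : ℕ) : ∃ K : ℕ, ∀ (n : ℕ) (z : Grid n) (l : ℕ)
    (a b : T.Fib n l) (p : (vertGraph T).Walk ⟨n, z, l, a⟩ ⟨n, z, l, b⟩), p.length ≤ k →
      ∃ w : List Gen, w.length ≤ K ∧ wd T n l w a = b := by
  classical
  let K0 : ℕ → ℕ := fun n => (bounded_transitive (T := T) n).choose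
  refine ⟨max ((Finset.range (k + 1)).sup K0)
    (liftCost T.bound (k * (T.bound + 1) ^ (2 * k)) k), fun n z l a b p hp => ?_⟩
  by_cases hn : n ≤ k
  · obtain ⟨w, hw, hwx⟩ := (bounded_transitive (T := T) n).choose_spec l a b
    exact ⟨w, hw.trans ((Finset.le_sup (f := K0) (Finset.mem_range.2 (Nat.lt_succ_of_le hn))).trans
      (le_max_left _ _)), hwx⟩
  · obtain ⟨y0, hy0⟩ := anc_exists (T := T) (show l - k ≤ l by omega) a
    have h0 : Good T n z l (l - k) y0 ((T.bound + 1) ^ (2 * k)) 0 ⟨n, z, l, a⟩ :=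
      ⟨z, l, a, rfl, le_rfl, le_rfl, 0, 0, [], by simp, by simp, by simp, by simpa [wd_nil] using hy0⟩
    obtain ⟨z', l', f', he, -, -, α, β, w, hw, hα, hβ, hanc⟩ :=
      good_walk (k := k) (by omega) (by omega) le_rfl p 0 (by omega) h0
    simp only [Vert.mk.injEq, heq_eq_eq, true_and] at he
    obtain ⟨rfl, rfl, he⟩ := he
    replace he := eq_of_heq he
    subst he
    have hk : ((0 + p.length : ℕ) : ℤ) < (n : ℤ) + 3 := by omega
    have hα0 : α = 0 := winding_eq_zero hα hk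
    have hβ0 : β = 0 := winding_eq_zero hβ hk
    subst hα0; subst hβ0
    simp only [zpow_zero, Equiv.Perm.one_apply] at hanc
    obtain ⟨w', hw', hwx'⟩ := hy0.lift w hanc rfl
    refine ⟨w', hw'.trans ((liftCost_mono (hw.trans ?_) (by omega)).trans (le_max_right _ _)),
      hwx'⟩
    exact Nat.mul_le_mul_right _ (by omega)

theorem foldr_stepG {n : ℕ} (z : Grid n) (l : ℕ) (a : T.Fib n l) (w : List Gen) :
    w.foldr stepG (⟨n, z, l, a⟩ : Vert T) = ⟨n, z, l, wd T n l w a⟩ := by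
  induction w with
  | nil => rfl
  | cons g w ih => rw [List.foldr_cons, ih, stepG, wd_cons]

end Geom

end VP212
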