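import Vale.Agent.P212.Geom.Couple
import Vale.Agent.P212.Geom.Walks

/-!
P212, geometry: the geometric input of the averaging map.
-/

namespace VP212

namespace Geom

theorem geometrySpec : GeometrySpec := by
  intro T
  refine ⟨uniform_vert T, bounded_vert T, bounded_base, base_dist_le, dist_stepG, ?_, ?_⟩
  · intro R
    obtain ⟨K, hK⟩ := word_of_walk T ⌊R⌋₊
    refine ⟨K, fun x y hb hd => ?_⟩
    obtain ⟨n, z, l, a⟩ := x
    obtain ⟨n', z', l', b⟩ := y
    simp only [Vert.base, Base.mk.injEq] at hb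
    obtain ⟨rfl, hz, rfl⟩ := hb
    obtain rfl := eq_of_heq hz
    obtain ⟨p, hp⟩ := ((vert_reach_root T ⟨n, z, l, a⟩).trans
      (vert_reach_root T ⟨n, z, l, b⟩).symm).exists_walk_length_eq_dist
    have hd' : ((vertGraph T).dist ⟨n, z, l, a⟩ ⟨n, z, l, b⟩ : ℝ) ≤ R := by
      refine le_trans (le_of_eq ?_) hd
      change _ = joinDist (vertGraph T) Vert.n (vertRoot T) _ _
      simp [joinDist]
    obtain ⟨w, hw, hwa⟩ := hK n z l a b p (hp ▸ Nat.le_floor hd')
    exact ⟨w, hw, (foldr_stepG z l a w).trans (by rw [hwa])⟩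
  · exact fun R => ⟨R, fun u v h => couple_mono (couple_base u v) h⟩

end Geom

end VP212
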